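import Vale.Agent.P281.H969.TGB.Spec
import Vale.Agent.P281.H485.Gen.Har
import Vale.Agent.P281.H364.TD.Over
import Vale.Agent.P281.H364.TD.Fib

/-!
# P281, project T-GB, block B1 (helper225): the fibres contained in a small set of codimension two
-/

open Set Filter Metric Vale.Agent.P281 Vale.Agent.P281.J Vale.Agent.P281.MF
open Vale.Agent.P281.H64.Thin (IsThinSet)
open Vale.Agent.P281.H64.Gen (IsSmallSet IsSmall2 IsAnalyticSet)
open Vale.Agent.P281.H64 (Cm IsProperFibration)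
open Vale.Agent.P281.H150.Gen
open Vale.Agent.P281.H969.K (LocAnalytic exists_conn)
open scoped Topology ContDiff Manifold

noncomputable section

namespace Vale.Agent.P281.H225.TGB

section
variable {p : ℕ} {Y : Type} [TopologicalSpace Y] [ChartedSpace (Cm p) Y]
  [IsManifold 𝓘(ℂ, Cm p) ω Y]

/-- `H969.K.small_of_local`, without connectedness -/
theorem small_of_int [T2Space Y] [SecondCountableTopology Y] {S D : Set Y}
    (hS : IsSmallSet (Cm p) S)
    (hloc : ∀ y₀ ∉ S, LocAnalytic (p := p) D y₀)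
    (hint : ∀ y₀ ∉ S, ¬ ∀ᶠ y in 𝓝 y₀, y ∈ D) :
    IsSmallSet (Cm p) (S ∪ D) := by
  obtain ⟨hSc, hSt⟩ := hS
  have hloc' : ∀ y₀ ∉ S, ∃ (ι : Type) (U U' : Set Y) (P : ι → Y → ℂ), IsOpen U' ∧ y₀ ∈ U' ∧
      U' ⊆ Sᶜ ∧ (∀ a, ∀ y ∈ U', HolAt (Cm p) (P a) y) ∧ (∀ y ∈ U', y ∈ D ↔ ∀ a, P a y = 0) ∧
      ∀ a, (∃ y ∈ U', ∀ᶠ z in 𝓝 y, P a z = 0) → ∀ z ∈ U', P a z = 0 := by
    intro y₀ hy₀
    obtain ⟨ι, U, P, hU, hyU, hP, hD⟩ := hloc y₀ hy₀
    obtain ⟨U', h1, h2, h3, h4⟩ := exists_conn (p := p) (hU.inter hSc.isOpen_compl) ⟨hyU, hy₀⟩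
    exact ⟨ι, U, U', P, h1, h2, fun y hy => (h3 hy).2, fun a y hy => hP a y (h3 hy).1,
      fun y hy => hD y (h3 hy).1, fun a => h4 (P a) fun y hy => hP a y hy.1⟩
  refine ⟨?_, ?_⟩
  · -- closed
    rw [← isOpen_compl_iff, isOpen_iff_mem_nhds]
    intro y hy
    rw [mem_compl_iff, mem_union, not_or] at hy
    obtain ⟨hyS, hyD⟩ := hy
    obtain ⟨ι, U, U', P, h1, h2, h3, h4, h5, h6⟩ := hloc' y hyS
    obtain ⟨a, ha⟩ := not_forall.1 (fun h => hyD ((h5 y h2).2 h))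
    filter_upwards [h1.mem_nhds h2, (h4 a y h2).continuousAt.eventually_ne ha] with z hz hz'
    rintro (h | h)
    · exact h3 hz h
    · exact hz' ((h5 z hz).1 h a)
  · have h0 : SThin (Cm p) (S ∪ (D ∩ Sᶜ)) := by
      refine SThin.union hSt ?_
      have himg : D ∩ Sᶜ = id '' (D ∩ Sᶜ) := by rw [image_id]
      rw [himg]
      refine SThin.image_of_local fun y hy => ?_
      obtain ⟨ι, U, U', P, h1, h2, h3, h4, h5, h6⟩ := hloc' y hy.2
      have hLC : LocallyCompactSpace Y := ChartedSpace.locallyCompactSpace (Cm p) Y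
      obtain ⟨K, hK, hKU, hKc⟩ := local_compact_nhds (h1.mem_nhds h2)
      refine ⟨K, hK, ?_⟩
      rw [image_id]
      obtain ⟨a, ha⟩ : ∃ a, ¬ ∀ z ∈ U', P a z = 0 := by
        by_contra hcon
        push Not at hcon
        refine hint y hy.2 ?_
        filter_upwards [h1.mem_nhds h2] with z hz using (h5 z hz).2 fun a => hcon a z hz
      have hcl : IsClosed (D ∩ Sᶜ ∩ K) := by
        have h7 : D ∩ Sᶜ ∩ K = K ∩ D := by
          ext z
          constructor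
          · rintro ⟨⟨a, b⟩, c⟩
            exact ⟨c, a⟩
          · rintro ⟨a, b⟩
            exact ⟨⟨b, h3 (hKU a)⟩, a⟩
        rw [h7, ← isOpen_compl_iff, isOpen_iff_mem_nhds]
        intro z hz
        by_cases hzK : z ∈ K
        · have hzD : z ∉ D := fun h => hz ⟨hzK, h⟩
          obtain ⟨b, hb⟩ := not_forall.1 (fun h => hzD ((h5 z (hKU hzK)).2 h))
          filter_upwards [h1.mem_nhds (hKU hzK),
            (h4 b z (hKU hzK)).continuousAt.eventually_ne hb] with v hv hv'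
          rintro ⟨-, h⟩
          exact hv' ((h5 v hv).1 h b)
        · filter_upwards [hKc.isClosed.isOpen_compl.mem_nhds hzK] with v hv
          rintro ⟨h, -⟩
          exact hv h
      refine SThin.of_thin (thin_of_isClosed hcl ?_) subset_rfl
      rintro z ⟨⟨hzD, hzS⟩, hzK⟩
      refine ⟨P a, h4 a z (hKU hzK), fun h => ha fun v hv => h6 a ⟨z, hKU hzK, h⟩ v hv, ?_⟩
      filter_upwards [h1.mem_nhds (hKU hzK)] with v hv hvD
      exact (h5 v hv).1 hvD.1.1 a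
    refine SThin.mono h0 ?_
    rintro y (h | h)
    · exact Or.inl h
    · by_cases hy : y ∈ S
      · exact Or.inl hy
      · exact Or.inr ⟨h, hy⟩

end

/-- **B1** -/
theorem bad : H969.TGB.BadStmt := by
  intro p d X Y _ _ _ _ _ _ _ _ _ f S B hf hS hp hB hBa
  obtain ⟨hYc, -⟩ := H364.TD.compactSpace_base hf hp hS
  have hYs : SecondCountableTopology Y := ChartedSpace.secondCountable_of_sigmaCompact (Cm p) Y
  have hd : Dense Bᶜ := (H485.Gen.IsSmall2.small hB).dense_compl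
  refine ⟨S ∪ {y | ∀ x, f x = y → x ∉ Bᶜ}, subset_union_left, small_of_int hS
    (fun y₀ hy₀ => H364.TD.locAnalytic_over hf hp (fun x _ => ?_) hy₀) (fun y₀ hy₀ hcon => ?_),
    fun y hy hsub => hy (Or.inr fun x hx hxB => hxB (hsub hx))⟩
  · obtain ⟨U, ι, h, h1, h2, h3, h4⟩ := hBa x
    rw [compl_compl]
    exact ⟨ι, U, h, h1, h2, fun a y hy => h3 a y hy, h4⟩
  · obtain ⟨x₀, hx₀⟩ := (hp.connected y₀ hy₀).nonempty
    have hx₀ : f x₀ = y₀ := hx₀
    have h1 : ∀ᶠ x in 𝓝 x₀, ∀ x', f x' = f x → x' ∉ Bᶜ := by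
      have h2 : Tendsto f (𝓝 x₀) (𝓝 y₀) := by
        rw [← hx₀]
        exact hf.continuous.continuousAt
      exact h2.eventually hcon
    have h3 : ∃ᶠ x in 𝓝 x₀, x ∈ Bᶜ := mem_closure_iff_frequently.1 (hd x₀)
    obtain ⟨x, hx, hx'⟩ := (h3.and_eventually h1).exists
    exact hx' x rfl hx

end Vale.Agent.P281.H225.TGB
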