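import Vale.Agent.P281.H969.TGB.Spec
import Vale.Agent.P281.H485.Gen.Har
import Vale.Agent.P281.MF.SecExt

/-!
# P281, project T-GB, block B6 (helper225): the relative form is redefined on `B`
-/

open Set Filter Metric MeasureTheory
open Vale.Agent.P281 Vale.Agent.P281.MF Vale.Agent.P281.H713 Vale.Agent.P281.H713.TZ
open Vale.Agent.P272.K (Cm)
open Vale.Agent.P281.H64.Gen (IsSmallSet IsSmall2)
open Vale.Agent.P281.H64.TU (Tame RelFormT)
open Vale.Agent.P281.H969.TGB
open scoped Manifold ContDiff Topology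

noncomputable section

namespace Vale.Agent.P281.H225.TGB

section
variable {E E' : Type} [NormedAddCommGroup E] [NormedSpace ℂ E] [FiniteDimensional ℂ E]
  [NormedAddCommGroup E'] [NormedSpace ℂ E'] [FiniteDimensional ℂ E']
  {X Y : Type} [TopologicalSpace X] [ChartedSpace E X] [IsManifold 𝓘(ℂ, E) ω X]
  [TopologicalSpace Y] [ChartedSpace E' Y] [IsManifold 𝓘(ℂ, E') ω Y]

/-- `H` is the coefficient of `Θ` off `B`, in the charts at `z` and `f z`. -/
def Own (E E' : Type) [NormedAddCommGroup E] [NormedSpace ℂ E] [NormedAddCommGroup E']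
    [NormedSpace ℂ E'] {X Y : Type} [TopologicalSpace X] [ChartedSpace E X]
    [TopologicalSpace Y] [ChartedSpace E' Y] (f : X → Y) (B : Set X) (N : ℕ) (Θ : X → ℂ) (z : X)
    (H : X → ℂ) : Prop :=
  ContinuousAt H z ∧ ∀ᶠ w in 𝓝 z, w ∉ B →
    jac E' (chartAt E' (f z)) (f w) ^ N * Θ w = H w * jac E (chartAt E z) w ^ N

open Classical in
/-- The form with new values on `B`. -/
def ext (E E' : Type) [NormedAddCommGroup E] [NormedSpace ℂ E] [NormedAddCommGroup E']
    [NormedSpace ℂ E'] {X Y : Type} [TopologicalSpace X] [ChartedSpace E X]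
    [TopologicalSpace Y] [ChartedSpace E' Y] (f : X → Y) (B : Set X) (N : ℕ) (Θ : X → ℂ)
    (z : X) : ℂ :=
  if z ∈ B then
    if h : ∃ H, Own E E' f B N Θ z H then
      h.choose z * jac E (chartAt E z) z ^ N / jac E' (chartAt E' (f z)) (f z) ^ N
    else 0
  else Θ z

/-- comparison of the coefficients -/
theorem own_comp {f : X → Y} {B : Set X} {N : ℕ} {Θ : X → ℂ} (hd : Dense Bᶜ) {x₀ z : X} {y₀ : Y}
    (hf : ContinuousAt f z) (hz0 : z ∈ (chartAt E x₀).source)
    (hfz0 : f z ∈ (chartAt E' y₀).source) {P H H' : X → ℂ} (hP : ContinuousAt P z)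
    (hH : ContinuousAt H z) (h : ∀ᶠ w in 𝓝 z, w ∉ B →
      jac E' (chartAt E' y₀) (f w) ^ N * Θ w * P w = H w * jac E (chartAt E x₀) w ^ N)
    (h' : Own E E' f B N Θ z H') :
    jac E' (chartAt E' y₀) (f z) ^ N *
        (H' z * jac E (chartAt E z) z ^ N / jac E' (chartAt E' (f z)) (f z) ^ N) * P z =
      H z * jac E (chartAt E x₀) z ^ N := by
  set R : X → ℂ := fun z' => (fderiv ℂ ((chartAt E x₀ : X → E) ∘
    (chartAt E z).symm) (chartAt E z z')).det with hRd
  set T : Y → ℂ := fun z' => (fderiv ℂ ((chartAt E' y₀ : Y → E') ∘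
    (chartAt E' (f z)).symm) (chartAt E' (f z) z')).det with hTd
  have hR : ContinuousAt R z := MF.continuousAt_jac_ratio hz0
  have hT : ContinuousAt T (f z) := MF.continuousAt_jac_ratio hfz0
  have hR1 : ∀ z', z' ∈ (chartAt E x₀).source → z' ∈ (chartAt E z).source →
      jac E (chartAt E x₀) z' = R z' * jac E (chartAt E z) z' :=
    fun z' a b => MF.jac_chart_comp a b
  have hT1 : ∀ z', z' ∈ (chartAt E' y₀).source → z' ∈ (chartAt E' (f z)).source →
      jac E' (chartAt E' y₀) z' = T z' * jac E' (chartAt E' (f z)) z' :=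
    fun z' a b => MF.jac_chart_comp a b
  have key : T (f z) ^ N * H' z * P z = H z * R z ^ N := by
    have hc1 : ContinuousAt (fun z' => T (f z') ^ N * H' z' * P z') z :=
      (((ContinuousAt.comp (f := f) (g := T) hT hf).pow N).mul h'.1).mul hP
    have hc2 : ContinuousAt (fun z' => H z' * R z' ^ N) z := hH.mul (hR.pow N)
    have h3 : ∃ᶠ z' in 𝓝 z, z' ∈ Bᶜ := mem_closure_iff_frequently.1 (hd z)
    have e1 : ∀ᶠ z' in 𝓝 z, z' ∈ (chartAt E x₀).source :=
      (chartAt E x₀).open_source.mem_nhds hz0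
    have e2 : ∀ᶠ z' in 𝓝 z, f z' ∈ (chartAt E' y₀).source :=
      hf.eventually ((chartAt E' y₀).open_source.mem_nhds hfz0)
    have e3 : ∀ᶠ z' in 𝓝 z, z' ∈ (chartAt E z).source :=
      (chartAt E z).open_source.mem_nhds (mem_chart_source _ z)
    have e4 : ∀ᶠ z' in 𝓝 z, f z' ∈ (chartAt E' (f z)).source :=
      hf.eventually ((chartAt E' (f z)).open_source.mem_nhds (mem_chart_source _ (f z)))
    have e5 : ∀ᶠ z' in 𝓝 z, z' ∉ B → T (f z') ^ N * H' z' * P z' = H z' * R z' ^ N := by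
      filter_upwards [e1, e2, e3, e4, h, h'.2] with z' a1 a2 a5 a6 a3 a4 a7
      have b1 := a3 a7
      have b2 := a4 a7
      rw [hR1 z' a1 a5, hT1 (f z') a2 a6, mul_pow, mul_pow] at b1
      have b3 : jac E (chartAt E z) z' ^ N ≠ 0 := pow_ne_zero _ (jac_chart_ne_zero a5)
      refine mul_right_cancel₀ b3 ?_
      linear_combination b1 - T (f z') ^ N * P z' * b2
    by_contra hne
    obtain ⟨z', b1, b2, b3⟩ := (h3.and_eventually
      (((hc1.sub hc2).eventually_ne (sub_ne_zero.2 hne)).and e5)).exists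
    exact b2 (sub_eq_zero.2 (b3 b1))
  have hj : jac E' (chartAt E' (f z)) (f z) ^ N ≠ 0 :=
    pow_ne_zero _ (jac_chart_ne_zero (mem_chart_source _ (f z)))
  rw [hR1 z hz0 (mem_chart_source _ z), hT1 (f z) hfz0 (mem_chart_source _ (f z)), mul_pow,
    mul_pow]
  field_simp
  linear_combination (jac E (chartAt E z) z ^ N) * key

end

/-- `1` is an equation of the closed set `D` near the points off `D`. -/
theorem localEq_one' {E : Type} [NormedAddCommGroup E] [NormedSpace ℂ E] {X : Type}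
    [TopologicalSpace X] [ChartedSpace E X] {D : Set X} (hD : IsClosed D) {x : X} (hx : x ∉ D) :
    IsLocalEq E D (fun _ => 1) x :=
  ⟨Dᶜ, hD.isOpen_compl, hx, fun _ _ => contMDiffAt_const,
    fun _ hz => ⟨fun h => absurd h hz, fun h => absurd h one_ne_zero⟩,
    fun _ hz => absurd hz.1 hz.2⟩

/-- **B6** -/
theorem extR : ExtRStmt := by
  intro n p X Y E₁ _ _ _ _ _ _ _ _ _ _ _ T f S e₀ N 𝒜 κ Θ B hB hf hS h𝒜f h𝒜 hκf hκ hΘ
  classical
  have hd : Dense Bᶜ := (H485.Gen.IsSmall2.small hB).dense_compl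
  have hBc : IsClosed B := hB.1
  have hfc : Continuous f := hf.continuous
  -- the coefficient at a point of `B`
  have hown : ∀ z, f z ∉ S → (∀ D ∈ 𝒜, z ∉ D) → (∀ D, κ D ≠ 0 → z ∉ D) →
      ∃ H, Own (Cm n) (Cm p) f B N Θ z H := by
    intro z hz h1 h2
    obtain ⟨H, hH, hH'⟩ := hΘ.hol z z (f z) hz (mem_chart_source _ z) (mem_chart_source _ (f z))
      hκf.toFinset (fun _ _ => 1) (fun D hD => hκf.mem_toFinset.2 hD)
      (fun D hD => localEq_one' (hκ D (hκf.mem_toFinset.1 hD)).1 (h2 D (hκf.mem_toFinset.1 hD)))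
    have h3 : ∀ᶠ w in 𝓝 z, ∀ D ∈ 𝒜, w ∉ D := by
      rw [Filter.eventually_all_finite h𝒜f]
      exact fun D hD => (h𝒜 D hD).1.isOpen_compl.mem_nhds (h1 D hD)
    refine ⟨H, hH.continuousAt, ?_⟩
    filter_upwards [hH', h3] with w hw hw3 hwB
    have := hw (by
      intro D hD
      rcases mem_insert_iff.1 hD with rfl | hD
      · exact hwB
      · exact hw3 D hD) (by simp)
    simpa using this
  refine ⟨ext (Cm n) (Cm p) f B N Θ, fun x hx => by simp [ext, hx], ⟨?_, ?_⟩⟩
  · intro x₀ x y₀ hx hx0 hy0 T' e hT' he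
    obtain ⟨H, hH, hH'⟩ := hΘ.hol x₀ x y₀ hx hx0 hy0 T' e hT' he
    refine ⟨H, hH, ?_⟩
    have e1 : ∀ᶠ z in 𝓝 x, z ∈ (chartAt (Cm n) x₀).source :=
      (chartAt (Cm n) x₀).open_source.mem_nhds hx0
    have e2 : ∀ᶠ z in 𝓝 x, f z ∈ (chartAt (Cm p) y₀).source :=
      hfc.continuousAt.eventually ((chartAt (Cm p) y₀).open_source.mem_nhds hy0)
    have e3 : ∀ᶠ z in 𝓝 x, f z ∉ S :=
      hfc.continuousAt.eventually (hS.isOpen_compl.mem_nhds hx)
    have e4 : ∀ᶠ z in 𝓝 x, ∀ D ∈ T', IsLocalEq (Cm n) D (e D) z := by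
      rw [Filter.eventually_all_finset]
      intro D hD
      obtain ⟨V, hV, hxV, h1, h2, h3⟩ := he D hD
      filter_upwards [hV.mem_nhds hxV] with z hz
      exact ⟨V, hV, hz, h1, h2, h3⟩
    filter_upwards [e1, e2, e3, e4, hH.eventually, eventually_eventually_nhds.2 hH', hH']
      with z a1 a2 a3 a4 a5 a6 a6' hz𝒜 hprod
    by_cases hzB : z ∈ B
    · have b1 : ∀ D, κ D ≠ 0 → z ∉ D := by
        intro D hD hzD
        obtain ⟨V, hV, hzV, h1, h2, h3⟩ := a4 D (hT' D hD)
        have h4 : e D z = 0 := (h2 z hzV).1 hzD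
        exact (Finset.prod_ne_zero_iff.1 hprod D (hT' D hD)) (by rw [h4, zero_pow hD])
      have b2 := hown z a3 hz𝒜 b1
      have b3 : ext (Cm n) (Cm p) f B N Θ z = b2.choose z *
          jac (Cm n) (chartAt (Cm n) z) z ^ N / jac (Cm p) (chartAt (Cm p) (f z)) (f z) ^ N := by
        simp only [ext, if_pos hzB, dif_pos b2]
      rw [b3]
      have b4 : ContinuousAt (fun z => ∏ D ∈ T', e D z ^ κ D) z := by
        refine tendsto_finsetProd _ fun D hD => ?_
        obtain ⟨V, hV, hzV, h1, h2, h3⟩ := a4 D hD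
        exact ((h1 z hzV).continuousAt).pow _
      have b5 : ∀ᶠ w in 𝓝 z, ∀ D ∈ 𝒜, w ∉ D := by
        rw [Filter.eventually_all_finite h𝒜f]
        exact fun D hD => (h𝒜 D hD).1.isOpen_compl.mem_nhds (hz𝒜 D hD)
      refine own_comp (E := Cm n) (E' := Cm p) hd hfc.continuousAt a1 a2 b4 a5.continuousAt ?_
        b2.choose_spec
      filter_upwards [a6, b5, b4.eventually_ne hprod] with w c1 c2 c3 hwB
      exact c1 (by
        intro D hD
        rcases mem_insert_iff.1 hD with rfl | hD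
        · exact hwB
        · exact c2 D hD) c3
    · have b3 : ext (Cm n) (Cm p) f B N Θ z = Θ z := by simp [ext, hzB]
      rw [b3]
      exact a6' (by
        intro D hD
        rcases mem_insert_iff.1 hD with rfl | hD
        · exact hzB
        · exact hz𝒜 D hD) hprod
  · intro r K hr hK
    obtain ⟨C, hC⟩ := hΘ.bound r K hr hK
    refine ⟨C, fun v₀ Q h1 h2 h3 h4 h5 h6 P hP => ?_⟩
    have hv₀ : Q v₀ ∉ B := h6.1 v₀ (mem_ball_self hr)
    have b3 : ext (Cm n) (Cm p) f B N Θ (Q v₀) = Θ (Q v₀) := by simp [ext, hv₀]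
    rw [b3]
    refine hC v₀ Q h1 h2 h3 h4 (fun v hv D hD => ?_) h6 P hP
    rcases mem_insert_iff.1 hD with rfl | hD
    · exact h6.1 v hv
    · exact h5 v hv D hD

end Vale.Agent.P281.H225.TGB
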